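import Vale.Agent.P213.Final

open CategoryTheory Limits HomotopicalAlgebra Vale.Agent.P213

namespace Vale.Agent.Results.P213.A_full

/-- The three classes are the cofibrations, fibrations and weak equivalences of a model
structure on `C`. -/
def IsModel {C : Type 1} [Category.{0} C] (cof fib we : MorphismProperty C) : Prop :=
  ∃ M : ModelCategory C, M.categoryWithCofibrations.cofibrations = cof ∧
    M.categoryWithFibrations.fibrations = fib ∧
    M.categoryWithWeakEquivalences.weakEquivalences = we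

/-- The left adjoint preserves cofibrations and trivial cofibrations, and a map `L K ⟶ X` is a
weak equivalence iff its adjunct `K ⟶ R X` is one (for all `K` and `X`). -/
def IsQuillenEquiv {C D : Type 1} [Category.{0} C] [Category.{0} D]
    (cof we : MorphismProperty C) (cof' we' : MorphismProperty D) {L : C ⥤ D} {R : D ⥤ C}
    (adj : L ⊣ R) : Prop :=
  cof ≤ cof'.inverseImage L ∧ cof ⊓ we ≤ (cof' ⊓ we').inverseImage L ∧
    ∀ (K : C) (X : D) (f : L.obj K ⟶ X),
      Arrow.mk f ∈ we'.toSet ↔ Arrow.mk (adj.homEquiv K X f) ∈ we.toSet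

/-- The Ara-Maltsiniotis conjecture, for every `1 ≤ n ≤ ω`. -/
theorem result :
    IsModel (MorphismProperty.monomorphisms SSet.{0}) kanFib whe ∧
    ∀ n : ℕ∞, 1 ≤ n →
      HasLimits (NCat n) ∧ HasColimits (NCat n) ∧ IsModel (Cn n) (Fn n) (Wn n) ∧
      (∃ c : SSet.{0} ⥤ NCat n, Nonempty (c ⊣ nerveN n)) ∧
      ∀ (c : SSet.{0} ⥤ NCat n) (adj : c ⊣ nerveN n),
        IsQuillenEquiv (MorphismProperty.monomorphisms SSet.{0}) whe (Cn n) (Wn n)
          ((SSet.sdExAdjunction.comp SSet.sdExAdjunction).comp adj) := by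
  refine ⟨final.1, fun n hn => ?_⟩
  obtain ⟨h₁, h₂, h₃, h₄, h₅⟩ := final.2 n hn
  refine ⟨h₁, h₂, h₃, h₄, fun c adj => ?_⟩
  obtain ⟨k₁, k₂, k₃⟩ := h₅ c adj
  exact ⟨fun K L i hi => k₁ K L i hi, fun K L i hi => ⟨k₁ K L i hi.1, k₂ K L i hi.1 hi.2⟩, k₃⟩

end Vale.Agent.Results.P213.A_full
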